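import Mathlib

/-!
# Rows that are free of `[[1, 0], [0, 0]]`: the ancestor structure

`Zf r` is the set of zero columns of row `r` and `S` a set of active rows.  Two columns `y < x`
are directly related if both are zero in one active row; `Anc` is the reflexive transitive
closure.  A template is a set of columns closed under the direct relation in which any two
elements are related by `Anc`.
-/

namespace Vale.Agent.H80.ERem

open Finset

open scoped Classical

variable {n : ℕ} {Zf : Fin n → Finset (Fin n)} {S S' : Finset (Fin n)} {T : Finset (Fin n)}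
  {a b x y y' z : Fin n}

/-- direct relation: `y < x` are both zero in some active row -/
def Dir (Zf : Fin n → Finset (Fin n)) (S : Finset (Fin n)) (y x : Fin n) : Prop :=
  y < x ∧ ∃ r ∈ S, y ∈ Zf r ∧ x ∈ Zf r

/-- ancestor relation: the reflexive transitive closure of the direct relation -/
abbrev Anc (Zf : Fin n → Finset (Fin n)) (S : Finset (Fin n)) : Fin n → Fin n → Prop :=
  Relation.ReflTransGen (Dir Zf S)

/-- the active rows carry no copy of the pattern: for active rows `a < b` the common zeros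
form an initial segment of the zeros of row `b` -/
def SFree (Zf : Fin n → Finset (Fin n)) (S : Finset (Fin n)) : Prop :=
  ∀ a ∈ S, ∀ b ∈ S, a < b → ∀ x ∈ Zf a, x ∈ Zf b → ∀ y ∈ Zf b, y < x → y ∈ Zf a

/-- a template: closed under the direct relation, and any two elements are `Anc`-related -/
structure IsTemplate (Zf : Fin n → Finset (Fin n)) (S : Finset (Fin n)) (T : Finset (Fin n)) :
    Prop where
  closed : ∀ x ∈ T, ∀ y, Dir Zf S y x → y ∈ T
  chain : ∀ y ∈ T, ∀ x ∈ T, y < x → Anc Zf S y x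

/-- the zeros of row `a` that are zero in an earlier active row -/
noncomputable def Iset (Zf : Fin n → Finset (Fin n)) (S : Finset (Fin n)) (a : Fin n) :
    Finset (Fin n) :=
  (Zf a).filter fun y => ∃ b ∈ S, b < a ∧ y ∈ Zf b

/-- the zeros of row `a` that are zero in no earlier active row -/
noncomputable def Vset (Zf : Fin n → Finset (Fin n)) (S : Finset (Fin n)) (a : Fin n) :
    Finset (Fin n) :=
  (Zf a).filter fun y => ∀ b ∈ S, y ∈ Zf b → a ≤ b

/-- the ancestors of `Iset` that row `a` skips -/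
noncomputable def Sk (Zf : Fin n → Finset (Fin n)) (S : Finset (Fin n)) (a : Fin n) :
    Finset (Fin n) :=
  univ.filter fun v => v ∉ Zf a ∧ ∃ x ∈ Iset Zf S a, Anc Zf S v x

/-- the number of elements of `Iset` after `v` -/
noncomputable def cnt (Zf : Fin n → Finset (Fin n)) (S : Finset (Fin n)) (a v : Fin n) : ℕ :=
  ((Iset Zf S a).filter fun x => v < x).card

/-- robustness: few skipped ancestors are followed by few elements of `Iset` -/
def TRS (Zf : Fin n → Finset (Fin n)) (S : Finset (Fin n)) (K : ℕ) : Prop :=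
  ∀ a ∈ S, ∀ c : ℕ, ((Sk Zf S a).filter fun v => cnt Zf S a v ≤ c).card ≤ K * c

theorem Anc.le (h : Anc Zf S y x) : y ≤ x := by
  induction h with
  | refl => exact le_refl _
  | tail _ h2 ih => exact le_trans ih h2.1.le

theorem Anc.mono (hS : S ⊆ S') (h : Anc Zf S y x) : Anc Zf S' y x := by
  refine Relation.ReflTransGen.mono ?_ _ _ h
  rintro u v ⟨h1, r, hr, h2⟩
  exact ⟨h1, r, hS hr, h2⟩

theorem Dir.anc (h : Dir Zf S y x) : Anc Zf S y x := Relation.ReflTransGen.single h

theorem IsTemplate.anc_mem (hT : IsTemplate Zf S T) (hx : x ∈ T) (h : Anc Zf S y x) : y ∈ T := by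
  induction h using Relation.ReflTransGen.head_induction_on with
  | refl => exact hx
  | head h1 _ ih => exact hT.closed _ ih _ h1

/-- two direct predecessors of the same column are directly related -/
theorem dir_of_dir_dir (hF : SFree Zf S) (h1 : Dir Zf S y x) (h2 : Dir Zf S y' x) (hy : y < y') :
    Dir Zf S y y' := by
  obtain ⟨_, a, ha, hya, hxa⟩ := h1
  obtain ⟨hy'x, b, hb, hy'b, hxb⟩ := h2
  rcases lt_trichotomy a b with hab | hab | hab
  · exact ⟨hy, a, ha, hya, hF a ha b hb hab x hxa hxb y' hy'b hy'x⟩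
  · subst hab; exact ⟨hy, a, ha, hya, hy'b⟩
  · exact ⟨hy, b, hb, hF b hb a ha hab x hxb hxa y hya (lt_trans hy hy'x), hy'b⟩

/-- the ancestors of a column form a chain -/
theorem anc_of_anc_anc (hF : SFree Zf S) :
    ∀ x y y', Anc Zf S y x → Anc Zf S y' x → y < y' → Anc Zf S y y' := by
  intro x
  induction x using WellFoundedLT.induction with
  | _ x ih =>
    intro y y' h1 h2 hlt
    rcases Relation.ReflTransGen.cases_tail h2 with h | ⟨z2, hz2, hd2⟩
    · rw [h] at h1; exact h1
    · rcases Relation.ReflTransGen.cases_tail h1 with h | ⟨z1, hz1, hd1⟩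
      · exfalso
        have h3 : y' < x := lt_of_le_of_lt (Anc.le hz2) hd2.1
        rw [h] at h3
        exact lt_irrefl _ (lt_trans hlt h3)
      · rcases lt_trichotomy z1 z2 with h | h | h
        · exact ih z2 hd2.1 y y' (hz1.tail (dir_of_dir_dir hF hd1 hd2 h)) hz2 hlt
        · subst h; exact ih z1 hd1.1 y y' hz1 hz2 hlt
        · exact ih z1 hd1.1 y y' hz1 (hz2.tail (dir_of_dir_dir hF hd2 hd1 h)) hlt

theorem mem_Iset : y ∈ Iset Zf S a ↔ y ∈ Zf a ∧ ∃ b ∈ S, b < a ∧ y ∈ Zf b := by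
  rw [Iset, mem_filter]

theorem mem_Vset : y ∈ Vset Zf S a ↔ y ∈ Zf a ∧ ∀ b ∈ S, y ∈ Zf b → a ≤ b := by
  rw [Vset, mem_filter]

theorem mem_Sk : y ∈ Sk Zf S a ↔ y ∉ Zf a ∧ ∃ x ∈ Iset Zf S a, Anc Zf S y x := by
  rw [Sk, mem_filter]
  simp

theorem mem_Iset_or_mem_Vset (hy : y ∈ Zf a) : y ∈ Iset Zf S a ∨ y ∈ Vset Zf S a := by
  by_cases h : ∃ b ∈ S, b < a ∧ y ∈ Zf b
  · exact Or.inl (mem_Iset.mpr ⟨hy, h⟩)
  · refine Or.inr (mem_Vset.mpr ⟨hy, ?_⟩)
    intro b hb hyb
    by_contra hlt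
    exact h ⟨b, hb, not_le.mp hlt, hyb⟩

/-- every zero of an active row is new in some active row at or above it -/
theorem exists_Vset (hb : b ∈ S) (hy : y ∈ Zf b) : ∃ a ∈ S, a ≤ b ∧ y ∈ Vset Zf S a := by
  have hne : (S.filter fun r => y ∈ Zf r).Nonempty := ⟨b, mem_filter.mpr ⟨hb, hy⟩⟩
  obtain ⟨a, ha, hmin⟩ := exists_min_image _ (fun r : Fin n => r) hne
  rw [mem_filter] at ha
  refine ⟨a, ha.1, hmin b (mem_filter.mpr ⟨hb, hy⟩), mem_Vset.mpr ⟨ha.2, ?_⟩⟩
  intro c hc hyc
  exact hmin c (mem_filter.mpr ⟨hc, hyc⟩)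

/-- a direct predecessor of a new zero of row `a` is a zero of row `a` -/
theorem mem_of_dir_Vset (hF : SFree Zf S) (ha : a ∈ S) (hx : x ∈ Vset Zf S a)
    (h : Dir Zf S y x) : y ∈ Zf a := by
  rw [mem_Vset] at hx
  obtain ⟨hyx, b, hb, hyb, hxb⟩ := h
  rcases lt_or_eq_of_le (hx.2 b hb hxb) with hab | hab
  · exact hF a ha b hb hab x hx.1 hxb y hyb hyx
  · rw [hab]; exact hyb

/-- `Iset` is an initial segment of the zeros of the row -/
theorem Iset_initial (hF : SFree Zf S) (ha : a ∈ S) (hx : x ∈ Iset Zf S a) (hy : y ∈ Zf a)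
    (hlt : y < x) : y ∈ Iset Zf S a := by
  rw [mem_Iset] at hx ⊢
  obtain ⟨hxa, b, hb, hba, hxb⟩ := hx
  exact ⟨hy, b, hb, hba, hF b hb a ha hba x hxb hxa y hy hlt⟩

theorem Iset_lt_Vset (hF : SFree Zf S) (ha : a ∈ S) (hy : y ∈ Iset Zf S a)
    (hx : x ∈ Vset Zf S a) : y < x := by
  by_contra hcon
  rcases lt_or_eq_of_le (not_lt.mp hcon) with h | h
  · have h1 := Iset_initial hF ha hy (mem_Vset.mp hx).1 h
    obtain ⟨_, b, hb, hba, hxb⟩ := mem_Iset.mp h1
    exact absurd ((mem_Vset.mp hx).2 b hb hxb) (not_le.mpr hba)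
  · rw [h] at hx
    obtain ⟨_, b, hb, hba, hyb⟩ := mem_Iset.mp hy
    exact absurd ((mem_Vset.mp hx).2 b hb hyb) (not_le.mpr hba)

/-- an ancestor of a new zero of row `a` is a zero of row `a` or a skipped ancestor -/
theorem anc_Vset (hF : SFree Zf S) (ha : a ∈ S) (h : Anc Zf S y x) :
    x ∈ Vset Zf S a → y ∈ Zf a ∨ y ∈ Sk Zf S a := by
  induction h with
  | refl => intro hx; exact Or.inl (mem_Vset.mp hx).1
  | tail hyz hzx ih =>
    intro hx
    have hz := mem_of_dir_Vset hF ha hx hzx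
    rcases mem_Iset_or_mem_Vset (S := S) hz with h | h
    · by_cases hya : y ∈ Zf a
      · exact Or.inl hya
      · exact Or.inr (mem_Sk.mpr ⟨hya, _, h, hyz⟩)
    · exact ih h

/-- two zeros of one active row are `Anc`-related -/
theorem anc_of_mem_row (ha : a ∈ S) (hy : y ∈ Zf a) (hx : x ∈ Zf a) (hlt : y < x) :
    Anc Zf S y x := Dir.anc ⟨hlt, a, ha, hy, hx⟩

end Vale.Agent.H80.ERem
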