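import Mathlib

/-!
# The pattern `E = [[1, 0], [0, 0]]`: concrete definitions

`IsCop A i j c c'` says that rows `i < j` and columns `c < c'` of the binary matrix `A` carry a
copy of the `2 × 2` pattern with a single one in the top left corner.  For a set `R` of sampled
rows we define the three sets of column data attached to a row `i` that control the cost of
repairing row `i` from the sample.
-/

namespace Vale.Agent.H80.ERem

open Finset

variable {n : ℕ}

/-- rows `i < j` and columns `c < c'` carry a copy of `[[1, 0], [0, 0]]` -/
def IsCop (A : Fin n → Fin n → Bool) (i j c c' : Fin n) : Prop :=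
  i < j ∧ c < c' ∧ A i c = true ∧ A i c' = false ∧ A j c = false ∧ A j c' = false

instance (A : Fin n → Fin n → Bool) (i j c c' : Fin n) : Decidable (IsCop A i j c c') := by
  unfold IsCop; infer_instance

/-- no copy of the pattern -/
def Free (A : Fin n → Fin n → Bool) : Prop := ∀ i j c c', ¬ IsCop A i j c c'

/-- the copies carried by a fixed pair of rows -/
def pairCop (A : Fin n → Fin n → Bool) (i j : Fin n) : Finset (Fin n × Fin n) :=
  univ.filter fun p => IsCop A i j p.1 p.2

/-- the number of copies -/
def copNum (A : Fin n → Fin n → Bool) : ℕ := ∑ k1, ∑ k2, (pairCop A k1 k2).card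

/-- the entries where two matrices differ -/
def diffSet (A B : Fin n → Fin n → Bool) : Finset (Fin n × Fin n) :=
  univ.filter fun p => A p.1 p.2 ≠ B p.1 p.2

/-- pairs `(y, x)` of columns carrying a copy on row `i` and some sampled row -/
def HitSet (A : Fin n → Fin n → Bool) (R : Finset (Fin n)) (i : Fin n) : Finset (Fin n × Fin n) :=
  univ.filter fun p => ∃ k ∈ R, IsCop A i k p.1 p.2

/-- pairs `(y, x)` of columns, `y < x`, both zero in row `i`, which are not both zero in any
sampled row at or below `i` -/
def MissP (A : Fin n → Fin n → Bool) (R : Finset (Fin n)) (i : Fin n) : Finset (Fin n × Fin n) :=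
  univ.filter fun p => p.1 < p.2 ∧ A i p.1 = false ∧ A i p.2 = false ∧
    ∀ k ∈ R, i ≤ k → ¬ (A k p.1 = false ∧ A k p.2 = false)

/-- columns that are zero in row `i` and in no sampled row at or below `i` -/
def MissZ (A : Fin n → Fin n → Bool) (R : Finset (Fin n)) (i : Fin n) : Finset (Fin n) :=
  univ.filter fun x => A i x = false ∧ ∀ k ∈ R, i ≤ k → A k x = true

end Vale.Agent.H80.ERem
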